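import Vale.Agent.P217.H260.Main

/-!
# P217: Chai's conjecture for all finite-index subgroups of the extended Morava stabilizer group,
and the Landweber filtration theorem for finitely generated equivariant modules
-/

namespace Vale.Agent.Results.P217.LandweberFiltration

open Vale.Agent.P217.LT

universe u

/-- Chai's invariant ideal conjecture (first part: exactly the theorem `ChaiFull`), and: the
invariant prime (radical) ideals of every finite-index subgroup `U` of the group through which
`G_n` acts on `E₀` are exactly `I_0, …, I_n` (and `E₀`); the congruence subgroups have finite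
index; every finitely generated `E₀`-module with semilinear automorphisms over the elements of
`U` has all its associated primes among `I_0, …, I_n`, and has a finite strictly increasing
filtration by submodules, stable under all semilinear automorphisms over elements of `G_n`, whose
quotients are torsion-free modules over `E₀/I_h`, `h ≤ n`. -/
theorem result (p n : ℕ) [Fact p.Prime] (hn : 1 ≤ n) :
    (∃! Γ, IsHonda p n Γ) ∧ ∀ Γ, IsHonda p n Γ →
      multSeries Γ p = PowerSeries.X ^ p ^ n ∧
      (∃ F, IsUniversal p n Γ F ∧ HeightAdapted p n F) ∧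
      ∀ F, IsUniversal p n Γ F → HeightAdapted p n F →
        (∀ σ γ, IsIso (base p n Γ) (base p n Γ) γ →
          ∃ φ : E0 p n ≃+* E0 p n, ∀ ψ, Acts p n Γ F σ γ ψ ↔ ψ = φ) ∧
        (∀ J : Ideal (E0 p n),
          ((J.IsPrime ∧ IsInvariant p n Γ F J) ↔ ∃ h ≤ n, J = heightIdeal p n h) ∧
          ((J.IsRadical ∧ IsInvariant p n Γ F J) ↔
            (J = ⊤ ∨ ∃ h ≤ n, J = heightIdeal p n h))) ∧
        (∀ φ : RingAut (E0 p n), φ ∈ actionGroup p n Γ F ↔
          ∃ σ γ, Acts p n Γ F σ γ (φ : E0 p n →+* E0 p n)) ∧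
        (∀ N : ℕ, congruenceGroup p n Γ F N ≤ actionGroup p n Γ F ∧
          (congruenceGroup p n Γ F N).relIndex (actionGroup p n Γ F) ≠ 0) ∧
        ∀ U ≤ actionGroup p n Γ F, U.relIndex (actionGroup p n Γ F) ≠ 0 →
          (∀ J : Ideal (E0 p n),
            ((J.IsPrime ∧ InvariantUnder U J) ↔ ∃ h ≤ n, J = heightIdeal p n h) ∧
            ((J.IsRadical ∧ InvariantUnder U J) ↔
              (J = ⊤ ∨ ∃ h ≤ n, J = heightIdeal p n h))) ∧
          ∀ (M : Type u) [AddCommGroup M] [Module (E0 p n) M] [Module.Finite (E0 p n) M],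
            (∀ φ ∈ U, ∃ T : M ≃+ M, IsSemilinear φ T) →
            (∀ P ∈ associatedPrimes (E0 p n) M, ∃ h ≤ n, P = heightIdeal p n h) ∧
            ∃ (k : ℕ) (N : ℕ → Submodule (E0 p n) M), N 0 = ⊥ ∧ N k = ⊤ ∧ ∀ i < k,
              N i < N (i + 1) ∧
              (∀ φ ∈ actionGroup p n Γ F, ∀ T : M ≃+ M, IsSemilinear φ T →
                ∀ m, m ∈ N i ↔ T m ∈ N i) ∧
              ∃ h ≤ n, ∀ m ∈ N (i + 1), ∀ r : E0 p n,
                r • m ∈ N i ↔ r ∈ heightIdeal p n h ∨ m ∈ N i := by
  obtain ⟨h1, h2⟩ := Vale.Agent.P217.LTC.final p n hn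
  refine ⟨h1, fun Γ hΓ => ?_⟩
  obtain ⟨h3, h4, h5⟩ := h2 Γ hΓ
  refine ⟨h3, h4, fun F hF hH => ?_⟩
  obtain ⟨h6, h7⟩ := h5 F hF hH
  have hF' := Vale.Agent.P217.LTC.isUniversal_iff.1 hF
  exact ⟨h6, h7, Vale.Agent.P217.H260.mem_actionGroup hF',
    fun N => ⟨Vale.Agent.P217.H260.congruenceGroup_le N,
      Vale.Agent.P217.H260.congruence_index hF' N⟩,
    fun U hU hfin => Vale.Agent.P217.H260.main_subgroup hn hΓ hF hH U hU hfin⟩

end Vale.Agent.Results.P217.LandweberFiltration
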