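import Vale.Agent.P217.H934.Main2

/-!
# P217: the Serre tensor ideals of finitely generated Morava modules
-/

namespace Vale.Agent.Results.P217.SerreIdeals

open TensorProduct Vale.Agent.P217.LT Vale.Agent.P217.H934

universe u v

/-- Chai's invariant ideal conjecture (first part: exactly the theorem `ChaiFull`), and its
consequences for Morava modules: let `𝔾` be a topological group acting continuously on `E₀` through
automorphisms coming from `G_n`, with image of finite index in the image of `G_n` (for instance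
`G_n` itself, or an open subgroup), and consider finitely generated `E₀`-modules with continuous
semilinear `𝔾`-action.
* The Serre tensor ideals are exactly the `n + 2` classes `C_0 ⊋ C_1 ⊋ … ⊋ C_(n+1)` of modules
  killed by a power of `I_h` (the algebraic form of the Hovey-Strickland conjecture); the same holds
  for the tensor ideals closed under quotients and extensions only; `M ⊗ N ∈ C_h` if and only if
  `M ∈ C_h` or `N ∈ C_h`; and `N` is in the Serre tensor ideal generated by `M` if and only if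
  `Ann M ⊆ √(Ann N)`.
* A module killed by `I_h` is a vector bundle of constant rank over the stratum
  `V(I_h) ∖ V(I_(h+1))`.
* (Exact functor theorem) For an arbitrary `E₀`-module `N`, tensoring with `N` is exact on these
  modules if and only if `u_h` is injective on `N / I_h N` for all `0 ≤ h < n`. -/
theorem result (p n : ℕ) [Fact p.Prime] (hn : 1 ≤ n) :
    (∃! Γ, IsHonda p n Γ) ∧ ∀ Γ, IsHonda p n Γ →
      multSeries Γ p = PowerSeries.X ^ p ^ n ∧
      (∃ F, IsUniversal p n Γ F ∧ HeightAdapted p n F) ∧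
      ∀ F, IsUniversal p n Γ F → HeightAdapted p n F →
        (∀ σ γ, IsIso (base p n Γ) (base p n Γ) γ →
          ∃ φ : E0 p n ≃+* E0 p n, ∀ ψ, Acts p n Γ F σ γ ψ ↔ ψ = φ) ∧
        (∀ J : Ideal (E0 p n),
          ((J.IsPrime ∧ IsInvariant p n Γ F J) ↔ ∃ h ≤ n, J = heightIdeal p n h) ∧
          ((J.IsRadical ∧ IsInvariant p n Γ F J) ↔
            (J = ⊤ ∨ ∃ h ≤ n, J = heightIdeal p n h))) ∧
        (∀ φ : RingAut (E0 p n), φ ∈ actionGroup p n Γ F ↔
          ∃ σ γ, Acts p n Γ F σ γ (φ : E0 p n →+* E0 p n)) ∧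
        ∀ (𝔾 : Type u) [Group 𝔾] [TopologicalSpace 𝔾] [IsTopologicalGroup 𝔾]
          (π : 𝔾 →* RingAut (E0 p n)), ActsThrough p n Γ F π →
          (∀ J : Ideal (E0 p n),
            ((J.IsPrime ∧ InvariantUnder π.range J) ↔ ∃ h ≤ n, J = heightIdeal p n h) ∧
            ((J.IsRadical ∧ InvariantUnder π.range J) ↔
              (J = ⊤ ∨ ∃ h ≤ n, J = heightIdeal p n h))) ∧
          (∀ 𝒞 : ModuleClass (E0 p n) 𝔾,
            (IsSerreIdeal (heightIdeal p n n) π 𝒞 ↔ ∃ h ≤ n + 1, IsHeightClass p n π h 𝒞) ∧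
            (IsTorsionIdeal (heightIdeal p n n) π 𝒞 ↔ ∃ h ≤ n + 1, IsHeightClass p n π h 𝒞)) ∧
          (∀ h ≤ n, ∃ (M : Type) (_ : AddCommGroup M) (_ : Module (E0 p n) M) (ρ : 𝔾 → M → M),
            IsMoravaModule p n π M ρ ∧ HeightGE p n h M ∧ ¬ HeightGE p n (h + 1) M) ∧
          (∀ (M N : Type) [AddCommGroup M] [Module (E0 p n) M] [AddCommGroup N]
            [Module (E0 p n) N] (ρ : 𝔾 → M → M) (σ : 𝔾 → N → N),
            IsMoravaModule p n π M ρ → IsMoravaModule p n π N σ →
            (∀ h, HeightGE p n h (M ⊗[E0 p n] N) ↔ HeightGE p n h M ∨ HeightGE p n h N) ∧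
            ((∀ 𝒞 : ModuleClass (E0 p n) 𝔾, IsSerreIdeal (heightIdeal p n n) π 𝒞 →
              𝒞 M ρ → 𝒞 N σ) ↔
              Module.annihilator (E0 p n) M ≤ (Module.annihilator (E0 p n) N).radical)) ∧
          (∀ h ≤ n, ∀ (M : Type) [AddCommGroup M] [Module (E0 p n) M] (ρ : 𝔾 → M → M),
            IsMoravaModule p n π M ρ → heightIdeal p n h ≤ Module.annihilator (E0 p n) M →
            ∃ r, IsBundle (heightIdeal p n h) (if h < n then heightIdeal p n (h + 1) else ⊤)
              M r) ∧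
          ∀ (N : Type v) [AddCommGroup N] [Module (E0 p n) N],
            IsLandweberExact p n π N ↔ IsRegularOn p n N := by
  obtain ⟨h1, h2⟩ := Vale.Agent.P217.LTC.final p n hn
  refine ⟨h1, fun Γ hΓ => ?_⟩
  obtain ⟨h3, h4, h5⟩ := h2 Γ hΓ
  refine ⟨h3, h4, fun F hF hH => ?_⟩
  obtain ⟨h6, h7⟩ := h5 F hF hH
  refine ⟨h6, h7,
    Vale.Agent.P217.H260.mem_actionGroup (Vale.Agent.P217.LTC.isUniversal_iff.1 hF),
    fun 𝔾 _ _ _ π hπ => ?_⟩
  obtain ⟨k1, k2, k3, k4⟩ := main hn hΓ hF hH π hπ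
  exact ⟨k1, k2, k3, k4, fun h hh M _ _ ρ hρ hM => main_bundle hn hΓ hF hH π hπ h hh M ρ hρ hM,
    fun N _ _ => main_landweber hn hΓ hF hH π hπ N⟩

end Vale.Agent.Results.P217.SerreIdeals
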